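import Vale.Agent.P098.R.FDefs
import Vale.Agent.P098.H709.Defs
import Vale.Agent.P098.H709.Final

/-!
Dimension six and below: (1) one-homogeneous global minimizers are flat; (2) the global minimizers
(no homogeneity) are exactly zero and the half-plane solutions; (3) stable one-homogeneous solutions
with smooth cross-section are flat (minimality is not assumed).  Dimension seven and below: (4)
one-homogeneous global minimizers are stable solutions with smooth cross-section.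
-/

open MeasureTheory Vale.Agent.P098.FDefs Vale.Agent.P098.H709
open scoped RealInnerProductSpace

theorem Vale.Agent.Results.P098.CriticalDimension.result :
    (∀ d : ℕ, 1 ≤ d → d ≤ 6 → ∀ u : EuclideanSpace ℝ (Fin d) → ℝ,
      IsGlobalMinimizer u → IsOneHomogeneous u →
      (u =ᵐ[volume] (fun _ => 0)) ∨
        ∃ e : EuclideanSpace ℝ (Fin d), ‖e‖ = 1 ∧ u =ᵐ[volume] fun x => max ⟪x, e⟫ 0) ∧
    (∀ d : ℕ, 1 ≤ d → d ≤ 6 → ∀ u : EuclideanSpace ℝ (Fin d) → ℝ, (∀ x, 0 ≤ u x) →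
      (IsGlobalMinimizer u ↔ ((u =ᵐ[volume] (fun _ => 0)) ∨
        ∃ (e : EuclideanSpace ℝ (Fin d)) (a : ℝ), ‖e‖ = 1 ∧
          u =ᵐ[volume] fun x => max (⟪x, e⟫ - a) 0))) ∧
    (∀ d : ℕ, 2 ≤ d → d ≤ 6 → ∀ u U : EuclideanSpace ℝ (Fin d) → ℝ,
      IsSmoothCone u U → IsStable u U →
      (∀ x, u x = 0) ∨
        ∃ e : EuclideanSpace ℝ (Fin d), ‖e‖ = 1 ∧ ∀ x, u x = max ⟪x, e⟫ 0) ∧
    (∀ d : ℕ, 2 ≤ d → d ≤ 7 → ∀ u : EuclideanSpace ℝ (Fin d) → ℝ,
      IsGlobalMinimizer u → IsOneHomogeneous u →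
      ∃ v U : EuclideanSpace ℝ (Fin d) → ℝ, u =ᵐ[volume] v ∧ IsSmoothCone v U ∧ IsStable v U) :=
  ⟨fun _ h1 h6 u hu hh => Vale.Agent.P098.flat_le_six h1 h6 u hu hh,
    fun _ h1 h6 u h0 => classification h1 h6 u h0,
    fun _ h2 h6 _ _ h hs => stable_flat h2 h6 h hs,
    fun _ h2 h7 u hu hh => stable_cross_section h2 h7 u hu hh⟩
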