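import Vale.Agent.P098.R.FDefs
import Vale.Agent.P098.H246.Defs
import Vale.Agent.P098.H246.Final

/-!
(1) In dimension six and below, one-homogeneous global minimizers are flat.  (2) Partial regularity
in every dimension: the singular set of the free boundary of a global minimizer (no homogeneity is
assumed) is closed, empty in dimension `d ≤ 6`, locally finite in dimension `d = 7`, and of
Hausdorff dimension at most `d - 7` in dimension `d ≥ 7`.  (3) One-homogeneous global minimizers on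
`ℝᵈ` with a space of invariance of dimension at least `d - 6` are flat.
-/

open MeasureTheory Vale.Agent.P098.FDefs Vale.Agent.P098.H246
open scoped RealInnerProductSpace ENNReal

theorem Vale.Agent.Results.P098.SingularSets.result :
    (∀ d : ℕ, 1 ≤ d → d ≤ 6 → ∀ u : EuclideanSpace ℝ (Fin d) → ℝ,
      IsGlobalMinimizer u → IsOneHomogeneous u →
      (u =ᵐ[volume] (fun _ => 0)) ∨
        ∃ e : EuclideanSpace ℝ (Fin d), ‖e‖ = 1 ∧ u =ᵐ[volume] fun x => max ⟪x, e⟫ 0) ∧
    (∀ d : ℕ, 1 ≤ d → ∀ u : EuclideanSpace ℝ (Fin d) → ℝ, IsGlobalMinimizer u →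
      ∃ v : EuclideanSpace ℝ (Fin d) → ℝ, Continuous v ∧ u =ᵐ[volume] v ∧
        IsClosed (singularSet v) ∧
        (d ≤ 6 → singularSet v = ∅) ∧
        (d = 7 → ∀ K : Set (EuclideanSpace ℝ (Fin d)), IsCompact K → (singularSet v ∩ K).Finite) ∧
        dimH (singularSet v) ≤ ((d - 7 : ℕ) : ℝ≥0∞)) ∧
    (∀ d : ℕ, 1 ≤ d → ∀ u : EuclideanSpace ℝ (Fin d) → ℝ,
      IsGlobalMinimizer u → IsOneHomogeneous u →
      ∀ V : Submodule ℝ (EuclideanSpace ℝ (Fin d)), (∀ y ∈ V, ∀ᵐ x, u (x + y) = u x) →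
      d ≤ Module.finrank ℝ V + 6 →
      (u =ᵐ[volume] (fun _ => 0)) ∨
        ∃ e : EuclideanSpace ℝ (Fin d), ‖e‖ = 1 ∧ u =ᵐ[volume] fun x => max ⟪x, e⟫ 0) :=
  ⟨fun _ h1 h6 u hu hh => Vale.Agent.P098.flat_le_six h1 h6 u hu hh,
    fun _ h1 u hu => partial_regularity h1 u hu,
    fun _ h1 u hu hh V hV hd => flat_of_invariant h1 u hu hh V hV hd⟩
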